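import Vale.Agent.P038.H88.Defs

/-!
# Theorem A: from pairs of the second kind to pairs of the first kind
-/

namespace Vale.Agent.P038.H88

open Finset

attribute [local instance] Classical.propDecidable

variable {V : Type*} [Fintype V]

theorem card_ind (S : Finset V) : S.card = ∑ v, if v ∈ S then 1 else 0 := by
  rw [Finset.sum_boole]; simp

theorem cl_union (D : OGraph V) (X Y : Finset V) : cl D (X ∪ Y) = cl D X ∪ cl D Y := by
  ext u
  simp only [mem_cl, mem_union]
  constructor
  · rintro ((h | h) | ⟨x, hx | hx, hxu⟩)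
    · exact Or.inl (Or.inl h)
    · exact Or.inr (Or.inl h)
    · exact Or.inl (Or.inr ⟨x, hx, hxu⟩)
    · exact Or.inr (Or.inr ⟨x, hx, hxu⟩)
  · rintro ((h | ⟨x, hx, hxu⟩) | (h | ⟨x, hx, hxu⟩))
    · exact Or.inl (Or.inl h)
    · exact Or.inr ⟨x, Or.inl hx, hxu⟩
    · exact Or.inl (Or.inr h)
    · exact Or.inr ⟨x, Or.inr hx, hxu⟩

theorem cl_inter_sub (D : OGraph V) (X Y : Finset V) : cl D (X ∩ Y) ⊆ cl D X ∩ cl D Y :=
  subset_inter (cl_mono D inter_subset_left) (cl_mono D inter_subset_right)

theorem c_submod (D : OGraph V) (X Y : Finset V) :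
    c D (X ∪ Y) + c D (X ∩ Y) ≤ c D X + c D Y := by
  have h1 := card_union_add_card_inter X Y
  have h2 := card_union_add_card_inter (cl D X) (cl D Y)
  have h3 := card_le_card (cl_inter_sub D X Y)
  unfold c
  rw [cl_union]
  omega

/-- The largest minimiser in an interval. -/
theorem exists_lm (D : OGraph V) {lo hi : Finset V} (h : lo ⊆ hi) :
    ∃ P, lo ⊆ P ∧ P ⊆ hi ∧ (∀ S, lo ⊆ S → S ⊆ hi → c D P ≤ c D S) ∧
      (∀ S, lo ⊆ S → S ⊆ hi → P ⊆ S → c D S ≤ c D P → S = P) := by
  let fam : Finset (Finset V) := univ.filter fun S => lo ⊆ S ∧ S ⊆ hi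
  have hne : fam.Nonempty := ⟨lo, by simp [fam, h]⟩
  obtain ⟨P, hP, hmin⟩ := exists_min_image fam
    (fun S => c D S * ((Fintype.card V : ℤ) + 1) - (S.card : ℤ)) hne
  have hPm : lo ⊆ P ∧ P ⊆ hi := by simpa [fam] using hP
  have key : ∀ S, lo ⊆ S → S ⊆ hi →
      c D P * ((Fintype.card V : ℤ) + 1) - (P.card : ℤ) ≤
        c D S * ((Fintype.card V : ℤ) + 1) - (S.card : ℤ) := by
    intro S h1 h2
    exact hmin S (by simp [fam, h1, h2])
  have hPc : (P.card : ℤ) ≤ (Fintype.card V : ℤ) := by exact_mod_cast card_le_univ P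
  refine ⟨P, hPm.1, hPm.2, ?_, ?_⟩
  · intro S h1 h2
    by_contra hlt
    push Not at hlt
    have h3 := key S h1 h2
    have h4 : c D S + 1 ≤ c D P := hlt
    have h5 : (0 : ℤ) ≤ (S.card : ℤ) := by positivity
    have h6 : (0 : ℤ) ≤ (Fintype.card V : ℤ) + 1 := by positivity
    nlinarith [mul_le_mul_of_nonneg_right h4 h6]
  · intro S h1 h2 hPS hc
    have h3 := key S h1 h2
    have h6 : (0 : ℤ) ≤ (Fintype.card V : ℤ) + 1 := by positivity
    have h7 := mul_le_mul_of_nonneg_right hc h6
    have h8 : S.card ≤ P.card := by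
      have : (S.card : ℤ) ≤ (P.card : ℤ) := by linarith
      exact_mod_cast this
    exact (eq_of_subset_of_card_le hPS h8).symm

/-- The rank function (largest matching from `S` into `B`, written as a minimum). -/
noncomputable def f (D : OGraph V) (S B : Finset V) : ℕ :=
  S.powerset.inf' ⟨∅, by simp⟩ fun Z => (S \ Z).card + (cl D Z ∩ B).card

theorem f_le (D : OGraph V) {S B Z : Finset V} (h : Z ⊆ S) :
    f D S B ≤ (S \ Z).card + (cl D Z ∩ B).card :=
  inf'_le (s := S.powerset) (fun Z => (S \ Z).card + (cl D Z ∩ B).card) (mem_powerset.2 h)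

theorem exists_f (D : OGraph V) (S B : Finset V) :
    ∃ Z, Z ⊆ S ∧ f D S B = (S \ Z).card + (cl D Z ∩ B).card := by
  obtain ⟨Z, hZ, h⟩ := exists_mem_eq_inf' (s := S.powerset) ⟨∅, by simp⟩
    (fun Z => (S \ Z).card + (cl D Z ∩ B).card)
  exact ⟨Z, mem_powerset.1 hZ, h⟩

theorem lemmaM (D : OGraph V) {S S' B B' : Finset V} (u : V) (hS : S ⊆ S') (hB : B' ⊆ B) :
    f D S (insert u B) + f D S' B' ≤ f D S B + f D S' (insert u B') := by
  obtain ⟨Z, hZ, hZe⟩ := exists_f D S B
  obtain ⟨Z', hZ', hZe'⟩ := exists_f D S' (insert u B')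
  have h1 := f_le D (S := S) (B := insert u B) (Z := Z ∩ Z') (inter_subset_left.trans hZ)
  have h2 := f_le D (S := S') (B := B') (Z := Z ∪ Z') (union_subset (hZ.trans hS) hZ')
  have e1 := card_sdiff_add_card_eq_card (inter_subset_left.trans hZ : Z ∩ Z' ⊆ S)
  have e2 := card_sdiff_add_card_eq_card (union_subset (hZ.trans hS) hZ' : Z ∪ Z' ⊆ S')
  have e3 := card_sdiff_add_card_eq_card hZ
  have e4 := card_sdiff_add_card_eq_card hZ'
  have e5 := card_union_add_card_inter Z Z'
  have h3 : (cl D (Z ∩ Z') ∩ insert u B).card + (cl D (Z ∪ Z') ∩ B').card ≤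
      (cl D Z ∩ B).card + (cl D Z' ∩ insert u B').card := by
    rw [card_ind (cl D (Z ∩ Z') ∩ insert u B), card_ind (cl D (Z ∪ Z') ∩ B'),
      card_ind (cl D Z ∩ B), card_ind (cl D Z' ∩ insert u B'), ← sum_add_distrib,
      ← sum_add_distrib]
    apply sum_le_sum
    intro v _
    have a1 : v ∈ cl D (Z ∩ Z') → v ∈ cl D Z ∧ v ∈ cl D Z' := fun h =>
      mem_inter.1 (cl_inter_sub D Z Z' h)
    have a2 : v ∈ cl D (Z ∪ Z') → v ∈ cl D Z ∨ v ∈ cl D Z' := fun h => by
      rw [cl_union] at h
      exact mem_union.1 h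
    have a3 : v ∈ B' → v ∈ B := fun h => hB h
    simp only [mem_inter, mem_insert]
    by_cases p1 : v ∈ cl D (Z ∩ Z') <;> by_cases p2 : v ∈ cl D (Z ∪ Z') <;>
      by_cases p3 : v ∈ cl D Z <;> by_cases p4 : v ∈ cl D Z' <;> by_cases p5 : v ∈ B <;>
      by_cases p6 : v ∈ B' <;> by_cases p7 : v = u <;> simp_all
  omega

theorem f_empty (D : OGraph V) (S : Finset V) : f D S ∅ = 0 := by
  have := f_le D (S := S) (B := ∅) (Z := S) (Subset.refl _)
  simpa using this

theorem f_insert_le (D : OGraph V) (S B : Finset V) (u : V) :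
    f D S (insert u B) ≤ f D S B + 1 := by
  obtain ⟨Z, hZ, hZe⟩ := exists_f D S B
  have h1 := f_le D (S := S) (B := insert u B) hZ
  have h2 : (cl D Z ∩ insert u B).card ≤ (cl D Z ∩ B).card + 1 := by
    refine (card_le_card (t := insert u (cl D Z ∩ B)) ?_).trans (card_insert_le _ _)
    intro v hv
    simp only [mem_inter, mem_insert] at hv ⊢
    tauto
  omega

theorem f_le_insert (D : OGraph V) (S B : Finset V) (u : V) :
    f D S B ≤ f D S (insert u B) := by
  obtain ⟨Z, hZ, hZe⟩ := exists_f D S (insert u B)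
  have h1 := f_le D (S := S) (B := B) hZ
  have h2 : (cl D Z ∩ B).card ≤ (cl D Z ∩ insert u B).card :=
    card_le_card (inter_subset_inter_left (subset_insert u B))
  omega

theorem f_insert_of_notMem (D : OGraph V) (S B : Finset V) (u : V) (hu : u ∉ cl D S) :
    f D S (insert u B) = f D S B := by
  refine le_antisymm ?_ (f_le_insert D S B u)
  obtain ⟨Z, hZ, hZe⟩ := exists_f D S B
  have h1 := f_le D (S := S) (B := insert u B) hZ
  have h2 : cl D Z ∩ insert u B = cl D Z ∩ B := by
    ext v
    simp only [mem_inter, mem_insert]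
    constructor
    · rintro ⟨h, rfl | h'⟩
      · exact absurd (cl_mono D hZ h) hu
      · exact ⟨h, h'⟩
    · rintro ⟨h, h'⟩
      exact ⟨h, Or.inr h'⟩
  rw [h2] at h1
  omega

/-- The greedy base along a list. -/
noncomputable def MM (D : OGraph V) (S T : Finset V) : List V → Finset V
  | [] => ∅
  | u :: l =>
      if u ∈ T ∧ f D S (insert u (T ∩ l.toFinset)) = f D S (T ∩ l.toFinset) + 1 then
        insert u (MM D S T l)
      else MM D S T l

theorem MM_sub_list (D : OGraph V) (S T : Finset V) (l : List V) : MM D S T l ⊆ l.toFinset := by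
  induction l with
  | nil => simp [MM]
  | cons u l ih =>
    rw [MM, List.toFinset_cons]
    split_ifs
    · exact insert_subset_insert u ih
    · exact ih.trans (subset_insert _ _)

theorem MM_sub_T (D : OGraph V) (S T : Finset V) (l : List V) : MM D S T l ⊆ T := by
  induction l with
  | nil => simp [MM]
  | cons u l ih =>
    rw [MM]
    split_ifs with h
    · exact insert_subset h.1 ih
    · exact ih

theorem MM_sub_cl (D : OGraph V) (S T : Finset V) (l : List V) : MM D S T l ⊆ cl D S := by
  induction l with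
  | nil => simp [MM]
  | cons u l ih =>
    rw [MM]
    split_ifs with h
    · refine insert_subset ?_ ih
      by_contra hu
      have := f_insert_of_notMem D S (T ∩ l.toFinset) u hu
      omega
    · exact ih

theorem MM_card (D : OGraph V) (S T : Finset V) (l : List V) (hl : l.Nodup) :
    (MM D S T l).card = f D S (T ∩ l.toFinset) := by
  induction l with
  | nil => simp [MM, f_empty]
  | cons u l ih =>
    rw [List.nodup_cons] at hl
    have ih' := ih hl.2
    rw [MM, List.toFinset_cons]
    by_cases hT : u ∈ T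
    · have e : T ∩ insert u l.toFinset = insert u (T ∩ l.toFinset) := by
        rw [inter_insert_of_mem hT]
      rw [e]
      have hu : u ∉ MM D S T l := fun h => hl.1 (by simpa using MM_sub_list D S T l h)
      split_ifs with h
      · rw [card_insert_of_notMem hu, ih', h.2]
      · have h1 := f_insert_le D S (T ∩ l.toFinset) u
        have h2 := f_le_insert D S (T ∩ l.toFinset) u
        have h3 : ¬ f D S (insert u (T ∩ l.toFinset)) = f D S (T ∩ l.toFinset) + 1 :=
          fun h' => h ⟨hT, h'⟩
        omega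
    · have e : T ∩ insert u l.toFinset = T ∩ l.toFinset := inter_insert_of_notMem hT
      rw [e, if_neg (fun h => hT h.1)]
      exact ih'

theorem MM_mono (D : OGraph V) {S S' T T' : Finset V} (hS : S ⊆ S') (hT : T' ⊆ T) (l : List V) :
    ∀ x ∈ MM D S T l, x ∈ T' → x ∈ MM D S' T' l := by
  induction l with
  | nil => simp [MM]
  | cons u l ih =>
    intro x hx hxT
    rw [MM] at hx ⊢
    by_cases h : u ∈ T ∧ f D S (insert u (T ∩ l.toFinset)) = f D S (T ∩ l.toFinset) + 1
    · rw [if_pos h, mem_insert] at hx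
      rcases hx with rfl | hx
      · have hM := lemmaM D (S := S) (S' := S') (B := T ∩ l.toFinset) (B' := T' ∩ l.toFinset) x hS
          (inter_subset_inter_right hT)
        have h1 := f_insert_le D S' (T' ∩ l.toFinset) x
        rw [if_pos ⟨hxT, by omega⟩]
        exact mem_insert_self _ _
      · have := ih x hx hxT
        split_ifs
        · exact mem_insert_of_mem this
        · exact this
    · rw [if_neg h] at hx
      have := ih x hx hxT
      split_ifs
      · exact mem_insert_of_mem this
      · exact this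

/-- The greedy base. -/
noncomputable def M (D : OGraph V) (S T : Finset V) : Finset V := MM D S T (univ : Finset V).toList

theorem M_card (D : OGraph V) (S T : Finset V) : (M D S T).card = f D S T := by
  rw [M, MM_card D S T _ (nodup_toList _)]
  simp

theorem M_sub_T (D : OGraph V) (S T : Finset V) : M D S T ⊆ T := MM_sub_T D S T _

theorem M_sub_cl (D : OGraph V) (S T : Finset V) : M D S T ⊆ cl D S := MM_sub_cl D S T _

theorem M_mono (D : OGraph V) {S S' T T' : Finset V} (hS : S ⊆ S') (hT : T' ⊆ T) {x : V}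
    (hx : x ∈ M D S T) (hxT : x ∈ T') : x ∈ M D S' T' := MM_mono D hS hT _ x hx hxT

theorem f_hall (D : OGraph V) {S X : Finset V} (hX : X ⊆ S)
    (hm : ∀ Z, X ⊆ Z → Z ⊆ S → c D X ≤ c D Z) :
    f D S (univ \ cl D X) = (S \ X).card := by
  apply le_antisymm
  · have := f_le D (S := S) (B := univ \ cl D X) hX
    simpa using this
  · obtain ⟨Z, hZ, hZe⟩ := exists_f D S (univ \ cl D X)
    rw [hZe]
    have h1 := hm (X ∪ Z) subset_union_left (union_subset hX hZ)
    unfold c at h1
    rw [cl_union] at h1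
    have h2 : (cl D Z ∩ (univ \ cl D X)).card + (cl D X).card = (cl D X ∪ cl D Z).card := by
      have : cl D Z ∩ (univ \ cl D X) = cl D Z \ cl D X := by
        ext v; simp
      rw [this, card_sdiff_add_card, union_comm]
    have h3 : (Z \ X).card + X.card = (X ∪ Z).card := by
      rw [card_sdiff_add_card, union_comm]
    have h4 : (S \ X).card ≤ (S \ Z).card + (Z \ X).card := by
      refine (card_le_card (t := (S \ Z) ∪ (Z \ X)) ?_).trans (card_union_le _ _)
      intro v hv
      simp only [mem_sdiff, mem_union] at hv ⊢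
      tauto
    omega

theorem theoremA (D : OGraph V) {P R : V → Finset V} (h : K2 D P R) :
    ∃ X' R' : V → Finset V, K1 D X' R' ∧ cost1 D X' R' ≤ cost2 D P R := by
  have hloP : ∀ a, cl D {a} ⊆ R a := fun a => (h.mem a).trans (h.sub a)
  have harc : ∀ a u, D.arc a u → u ∈ R a := fun a u hau =>
    hloP a (mem_cl.2 (Or.inr ⟨a, mem_singleton_self a, hau⟩))
  have hself : ∀ a, a ∈ R a := fun a => hloP a (mem_cl.2 (Or.inl (mem_singleton_self a)))
  have hlog : ∀ a, ({a} : Finset V) ⊆ g D R a := by
    intro a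
    rw [singleton_subset_iff, mem_g]
    rintro v (rfl | hv)
    · exact hself v
    · exact harc v a hv
  choose P' hP1 hP2 hP3 hP4 using fun a => exists_lm D (hloP a)
  choose X' hX1 hX2 hX3 hX4 using fun a => exists_lm D (hlog a)
  have hgR : ∀ a v, (v = a ∨ D.arc a v) → g D R v ⊆ R a := by
    intro a v hav u hu
    rw [mem_g] at hu
    apply hu a
    rcases hav with rfl | hav
    · exact Or.inl rfl
    · exact Or.inr hav
  -- (i)
  have hXP : ∀ a v, (v = a ∨ D.arc a v) → X' v ⊆ P' a := by
    intro a v hav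
    have hv : v ∈ P' a := hP1 a (mem_cl.2 (by
      rcases hav with rfl | hav
      · exact Or.inl (mem_singleton_self _)
      · exact Or.inr ⟨a, mem_singleton_self a, hav⟩))
    have hsub := c_submod D (P' a) (X' v)
    have h1 : c D (X' v) ≤ c D (P' a ∩ X' v) := by
      apply hX3 v
      · rw [singleton_subset_iff, mem_inter]
        exact ⟨hv, hX1 v (mem_singleton_self v)⟩
      · exact inter_subset_right.trans (hX2 v)
    have h2 : P' a ∪ X' v = P' a := by
      apply hP4 a
      · exact (hP1 a).trans subset_union_left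
      · exact union_subset (hP2 a) ((hX2 v).trans (hgR a v hav))
      · exact subset_union_left
      · omega
    rw [← h2]
    exact subset_union_right
  let R' : V → Finset V := fun a => cl D (X' a) ∪ M D (g D R a) (univ \ cl D (X' a))
  have hR'g : ∀ a, R' a ⊆ cl D (g D R a) := fun a =>
    union_subset (cl_mono D (hX2 a)) (M_sub_cl D _ _)
  have hR'card : ∀ a, ((R' a).card : ℤ) =
      ((cl D (X' a)).card : ℤ) + ((g D R a).card : ℤ) - ((X' a).card : ℤ) := by
    intro a
    have hd : Disjoint (cl D (X' a)) (M D (g D R a) (univ \ cl D (X' a))) := by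
      rw [disjoint_left]
      intro u hu hu'
      exact (mem_sdiff.1 (M_sub_T D _ _ hu')).2 hu
    have e1 : (R' a).card = (cl D (X' a)).card + (M D (g D R a) (univ \ cl D (X' a))).card :=
      card_union_of_disjoint hd
    rw [M_card, f_hall D (hX2 a) (fun Z hZ hZ' => hX3 a Z ((hX1 a).trans hZ) hZ')] at e1
    have e2 := card_sdiff_add_card_eq_card (hX2 a)
    omega
  have hun : ∀ a, ((un D R' a).card : ℤ) ≤
      ((cl D (P' a)).card : ℤ) + ((R a).card : ℤ) - ((P' a).card : ℤ) := by
    intro a
    have hsub : un D R' a ⊆ cl D (P' a) ∪ M D (R a) (univ \ cl D (P' a)) := by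
      intro u hu
      obtain ⟨v, hav, huv⟩ := mem_un.1 hu
      rw [mem_union]
      by_cases huP : u ∈ cl D (P' a)
      · exact Or.inl huP
      · right
        have hnot : u ∉ cl D (X' v) := fun h' => huP (cl_mono D (hXP a v hav) h')
        rcases mem_union.1 huv with h1 | h1
        · exact absurd h1 hnot
        · refine M_mono D (hgR a v hav) ?_ h1 (mem_sdiff.2 ⟨mem_univ u, huP⟩)
          exact sdiff_subset_sdiff (Subset.refl _) (cl_mono D (hXP a v hav))
    have e1 := (card_le_card hsub).trans (card_union_le _ _)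
    rw [M_card] at e1
    have e2 := f_le D (S := R a) (B := univ \ cl D (P' a)) (hP2 a)
    have e3 : (cl D (P' a) ∩ (univ \ cl D (P' a))) = ∅ := by
      ext v; simp
    rw [e3, card_empty, add_zero] at e2
    have e4 := card_sdiff_add_card_eq_card (hP2 a)
    omega
  refine ⟨X', R', ⟨fun a => hX1 a (mem_singleton_self a), fun a => subset_union_left, ?_⟩, ?_⟩
  · intro a b hba hb
    have hb' := hR'g a hb
    rw [mem_cl] at hb'
    rcases hb' with hb' | ⟨x, hx, hxb⟩
    · rw [mem_g] at hb'
      exact h.av a b hba (hb' a (Or.inl rfl))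
    · rw [mem_g] at hx
      exact h.av b x hxb (hx b (Or.inr hba))
  · unfold cost1 cost2
    rw [← sum_add_distrib, ← sum_add_distrib]
    apply sum_le_sum
    intro a _
    have h1 := hR'card a
    have h2 := hun a
    have h3 : c D (P' a) ≤ c D (P a) := hP3 a (P a) (h.mem a) (h.sub a)
    unfold c at h3 ⊢
    omega

end Vale.Agent.P038.H88
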