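import Vale.Agent.P038.H88.Defs

/-!
# Theorem B: property (G) makes the second cost smaller than the first
-/

namespace Vale.Agent.P038.H88

open Finset

attribute [local instance] Classical.propDecidable

variable {V : Type*} [Fintype V]

theorem sum_card_swap (A B : V → Finset V) (h : ∀ u a, a ∈ A u → u ∈ B a) :
    ∑ u, (A u).card ≤ ∑ a, (B a).card := by
  have e : ∀ S : Finset V, S.card = ∑ v, if v ∈ S then 1 else 0 := by
    intro S
    rw [Finset.sum_boole]; simp
  simp_rw [e]
  rw [sum_comm]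
  apply sum_le_sum
  intro a _
  apply sum_le_sum
  intro u _
  by_cases h1 : a ∈ A u
  · rw [if_pos h1, if_pos (h u a h1)]
  · rw [if_neg h1]
    exact Nat.zero_le _

theorem c_cl_le {D : OGraph V} (hG : G D) (S : Finset V) : c D (cl D S) ≤ c D S := by
  by_cases h : cl D S = S
  · rw [h]
  · exact (hG S h).le

theorem exists_not_closed (D : OGraph V) [Nonempty V] (hout : ∀ v, ∃ u, D.arc v u)
    {X R : V → Finset V} (h : K1 D X R) : ∃ b, cl D (X b) ≠ X b := by
  by_contra hno
  push Not at hno
  let fam : Finset (Finset V) := univ.filter fun C => C.Nonempty ∧ cl D C = C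
  have hne : fam.Nonempty := by
    refine ⟨univ, ?_⟩
    simp only [fam, mem_filter, mem_univ, true_and]
    exact ⟨univ_nonempty, eq_univ_of_forall fun v => mem_cl.2 (Or.inl (mem_univ v))⟩
  obtain ⟨C, hC, hmin⟩ := exists_min_image fam (fun C => C.card) hne
  have hC' : C.Nonempty ∧ cl D C = C := by simpa [fam] using hC
  obtain ⟨a, ha⟩ := hC'.1
  obtain ⟨b, hab⟩ := hout a
  have hb : b ∈ C := by
    rw [← hC'.2]
    exact mem_cl.2 (Or.inr ⟨a, ha, hab⟩)
  have hcl : cl D (X b ∩ C) = X b ∩ C := by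
    apply Subset.antisymm _ (subset_cl D _)
    apply subset_inter
    · exact (cl_mono D inter_subset_left).trans (hno b).subset
    · exact (cl_mono D inter_subset_right).trans hC'.2.subset
  have hm : (X b ∩ C) ∈ fam := by
    simp only [fam, mem_filter, mem_univ, true_and]
    exact ⟨⟨b, mem_inter.2 ⟨h.mem b, hb⟩⟩, hcl⟩
  have h1 := hmin _ hm
  have h2 : X b ∩ C = C := eq_of_subset_of_card_le inter_subset_right h1
  have h3 : a ∈ X b := by
    have : a ∈ X b ∩ C := by rw [h2]; exact ha
    exact (mem_inter.1 this).1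
  exact h.av b a hab (h.sub b (subset_cl D _ h3))

theorem theoremB (D : OGraph V) [Nonempty V] (hG : G D) (hout : ∀ v, ∃ u, D.arc v u)
    {X R : V → Finset V} (h : K1 D X R) :
    ∃ P R2 : V → Finset V, K2 D P R2 ∧ cost2 D P R2 < cost1 D X R := by
  let Q : V → Finset V := fun b => univ.filter fun y => y = b ∨ b ∉ R y
  let Y : V → Finset V := fun b => univ.filter fun y => cl D {y} ⊆ Q b
  let R2 : V → Finset V := fun a => univ.filter fun u => u = a ∨ a ∉ cl D (Y u)
  have memQ : ∀ b y, y ∈ Q b ↔ y = b ∨ b ∉ R y := by intro b y; simp [Q]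
  have memY : ∀ b y, y ∈ Y b ↔ cl D {y} ⊆ Q b := by intro b y; simp [Y]
  have memR2 : ∀ a u, u ∈ R2 a ↔ u = a ∨ a ∉ cl D (Y u) := by intro a u; simp [R2]
  have hYself : ∀ b, b ∈ Y b := by
    intro b
    rw [memY]
    intro u hu
    rw [memQ]
    rw [mem_cl] at hu
    rcases hu with hu | ⟨x, hx, hxu⟩
    · exact Or.inl (mem_singleton.1 hu)
    · rw [mem_singleton] at hx
      subst hx
      exact Or.inr (h.av u x hxu)
  have hYQ : ∀ b, cl D (Y b) ⊆ Q b := by
    intro b u hu
    rw [mem_cl] at hu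
    rcases hu with hu | ⟨x, hx, hxu⟩
    · exact (memY b u).1 hu (mem_cl.2 (Or.inl (mem_singleton_self u)))
    · exact (memY b x).1 hx (mem_cl.2 (Or.inr ⟨x, mem_singleton_self x, hxu⟩))
  have hXR : ∀ v a, D.arc v a → a ∈ R v := fun v a hva =>
    h.sub v (mem_cl.2 (Or.inr ⟨v, h.mem v, hva⟩))
  refine ⟨fun a => cl D (X a), R2, ⟨?_, ?_, ?_⟩, ?_⟩
  · intro a
    exact cl_mono D (singleton_subset_iff.2 (h.mem a))
  · intro a u hu
    rw [memR2]
    by_cases hua : u = a
    · exact Or.inl hua
    · right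
      intro hcon
      rcases (memQ u a).1 (hYQ u hcon) with h1 | h1
      · exact hua h1.symm
      · exact h1 (h.sub a hu)
  · intro a b hba hb
    rcases (memR2 a b).1 hb with h1 | h1
    · subst h1
      exact D.loopless b hba
    · exact h1 (mem_cl.2 (Or.inr ⟨b, hYself b, hba⟩))
  · -- the four sums
    have hRun : ∀ a, R a ⊆ un D R a := fun a u hu => mem_un.2 ⟨a, Or.inl rfl, hu⟩
    have hgR2 : ∀ a, g D R2 a ⊆ R2 a := fun a u hu => mem_g.1 hu a (Or.inl rfl)
    have s1 : ∑ u, (cl D (Y u) \ Y u).card ≤ ∑ a, (un D R a \ R a).card := by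
      apply sum_card_swap
      intro u a ha
      rw [mem_sdiff] at ha
      have haQ := hYQ u ha.1
      have hau : a ≠ u := by
        rintro rfl
        exact ha.2 (hYself a)
      have huR : u ∉ R a := by
        rcases (memQ u a).1 haQ with h1 | h1
        · exact absurd h1 hau
        · exact h1
      have hnot : ¬ cl D {a} ⊆ Q u := fun h' => ha.2 ((memY u a).2 h')
      rw [not_subset] at hnot
      obtain ⟨v, hv, hvQ⟩ := hnot
      rw [memQ, not_or, not_not] at hvQ
      rw [mem_sdiff, mem_un]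
      refine ⟨⟨v, ?_, hvQ.2⟩, huR⟩
      rw [mem_cl] at hv
      rcases hv with hv | ⟨x, hx, hxv⟩
      · exact Or.inl (mem_singleton.1 hv)
      · rw [mem_singleton] at hx
        subst hx
        exact Or.inr hxv
    have s2 : ∑ a, (R2 a \ g D R2 a).card ≤ ∑ u, (cl D (cl D (Y u)) \ cl D (Y u)).card := by
      apply sum_card_swap
      intro a u hu
      rw [mem_sdiff] at hu
      obtain ⟨hu1, hu2⟩ := hu
      have hu3 : ∃ v, (v = a ∨ D.arc v a) ∧ u ∉ R2 v := by
        by_contra hno
        push Not at hno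
        exact hu2 (mem_g.2 fun v hv => hno v hv)
      obtain ⟨v, hva, huv⟩ := hu3
      have hva' : D.arc v a := by
        rcases hva with rfl | hva
        · exact absurd hu1 huv
        · exact hva
      rw [memR2, not_or, not_not] at huv
      have haY : a ∉ cl D (Y u) := by
        rcases (memR2 a u).1 hu1 with h1 | h1
        · subst h1
          exfalso
          rcases (memQ u v).1 (hYQ u huv.2) with h2 | h2
          · exact huv.1 h2.symm
          · exact h2 (hXR v u hva')
        · exact h1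
      rw [mem_sdiff]
      exact ⟨mem_cl.2 (Or.inr ⟨v, huv.2, hva'⟩), haY⟩
    have e1 : ∀ a, (((un D R a).card : ℤ) - ((R a).card : ℤ)) = ((un D R a \ R a).card : ℤ) := by
      intro a
      have := card_sdiff_add_card_eq_card (hRun a)
      omega
    have e2 : ∀ a, (((R2 a).card : ℤ) - ((g D R2 a).card : ℤ)) = ((R2 a \ g D R2 a).card : ℤ) := by
      intro a
      have := card_sdiff_add_card_eq_card (hgR2 a)
      omega
    have e3 : ∀ S : Finset V, c D S = ((cl D S \ S).card : ℤ) := by
      intro S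
      have := card_sdiff_add_card_eq_card (subset_cl D S)
      unfold c
      omega
    obtain ⟨b, hb⟩ := exists_not_closed D hout h
    have t1 : ∑ a, c D (cl D (X a)) < ∑ a, c D (X a) := by
      apply sum_lt_sum (fun a _ => c_cl_le hG (X a))
      exact ⟨b, mem_univ b, hG (X b) hb⟩
    have t2 : ∑ u, c D (cl D (Y u)) ≤ ∑ u, c D (Y u) :=
      sum_le_sum fun u _ => c_cl_le hG (Y u)
    have t3 : ∑ u, c D (Y u) ≤ ∑ a, (((un D R a).card : ℤ) - ((R a).card : ℤ)) := by
      simp_rw [e1, e3]
      exact_mod_cast s1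
    have t4 : ∑ a, (((R2 a).card : ℤ) - ((g D R2 a).card : ℤ)) ≤ ∑ u, c D (cl D (Y u)) := by
      simp_rw [e2, e3]
      exact_mod_cast s2
    unfold cost1 cost2
    linarith

end Vale.Agent.P038.H88
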