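import Vale.Agent.P038.Defs

/-!
# Seymour's second neighbourhood conjecture: definitions for the proof by pairs of families
-/

namespace Vale.Agent.P038.H88

open Finset

variable {V : Type*} [Fintype V]

open Classical in
/-- Closed out-neighbourhood of a set. -/
noncomputable def cl (D : OGraph V) (X : Finset V) : Finset V :=
  univ.filter fun u => u ∈ X ∨ ∃ x ∈ X, D.arc x u

/-- `|N[X]| - |X|`. -/
noncomputable def c (D : OGraph V) (X : Finset V) : ℤ := ((cl D X).card : ℤ) - (X.card : ℤ)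

/-- Property (G): the boundary shrinks strictly under closed out-neighbourhood. -/
def G (D : OGraph V) : Prop := ∀ X : Finset V, cl D X ≠ X → c D (cl D X) < c D X

open Classical in
/-- The intersection of the sets `R v` over `v = a` and `v → a`. -/
noncomputable def g (D : OGraph V) (R : V → Finset V) (a : V) : Finset V :=
  univ.filter fun u => ∀ v, (v = a ∨ D.arc v a) → u ∈ R v

open Classical in
/-- The union of the sets `R v` over `v = a` and `a → v`. -/
noncomputable def un (D : OGraph V) (R : V → Finset V) (a : V) : Finset V :=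
  univ.filter fun u => ∃ v, (v = a ∨ D.arc a v) ∧ u ∈ R v

/-- Pairs of families of the first kind. -/
structure K1 (D : OGraph V) (X R : V → Finset V) : Prop where
  mem : ∀ a, a ∈ X a
  sub : ∀ a, cl D (X a) ⊆ R a
  av : ∀ a b, D.arc b a → b ∉ R a

/-- Pairs of families of the second kind. -/
structure K2 (D : OGraph V) (P R : V → Finset V) : Prop where
  mem : ∀ a, cl D {a} ⊆ P a
  sub : ∀ a, P a ⊆ R a
  av : ∀ a b, D.arc b a → b ∉ R a

/-- First cost. -/
noncomputable def cost1 (D : OGraph V) (X R : V → Finset V) : ℤ :=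
  ∑ a, c D (X a) + ∑ a, (((un D R a).card : ℤ) - ((R a).card : ℤ))

/-- Second cost. -/
noncomputable def cost2 (D : OGraph V) (P R : V → Finset V) : ℤ :=
  ∑ a, c D (P a) + ∑ a, (((R a).card : ℤ) - ((g D R a).card : ℤ))

theorem mem_cl {D : OGraph V} {X : Finset V} {u : V} :
    u ∈ cl D X ↔ u ∈ X ∨ ∃ x ∈ X, D.arc x u := by
  classical
  simp [cl]

theorem mem_g {D : OGraph V} {R : V → Finset V} {a u : V} :
    u ∈ g D R a ↔ ∀ v, (v = a ∨ D.arc v a) → u ∈ R v := by
  classical
  simp [g]

theorem mem_un {D : OGraph V} {R : V → Finset V} {a u : V} :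
    u ∈ un D R a ↔ ∃ v, (v = a ∨ D.arc a v) ∧ u ∈ R v := by
  classical
  simp [un]

theorem subset_cl (D : OGraph V) (X : Finset V) : X ⊆ cl D X := fun _ h => mem_cl.2 (Or.inl h)

theorem cl_mono (D : OGraph V) {X Y : Finset V} (h : X ⊆ Y) : cl D X ⊆ cl D Y := by
  intro u hu
  rw [mem_cl] at hu ⊢
  rcases hu with hu | ⟨x, hx, hxu⟩
  · exact Or.inl (h hu)
  · exact Or.inr ⟨x, h hx, hxu⟩

/-
WANTED (literal statements):

theorem G_of_arcMin (D : OGraph V) (h : ∀ v, (N2 D v).card < (N1 D v).card)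
    (hmin : ∀ D' : OGraph V, (∀ u v, D'.arc u v → D.arc u v) →
      (∀ v, (N2 D' v).card < (N1 D' v).card) → ∀ u v, D.arc u v → D'.arc u v) : G D

theorem exists_arcMin (D : OGraph V) (h : ∀ v, (N2 D v).card < (N1 D v).card) :
    ∃ D0 : OGraph V, (∀ v, (N2 D0 v).card < (N1 D0 v).card) ∧
      ∀ D' : OGraph V, (∀ u v, D'.arc u v → D0.arc u v) →
        (∀ v, (N2 D' v).card < (N1 D' v).card) → ∀ u v, D0.arc u v → D'.arc u v

theorem theoremB (D : OGraph V) [Nonempty V] (hG : G D) (hout : ∀ v, ∃ u, D.arc v u)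
    {X R : V → Finset V} (h : K1 D X R) : ∃ P R2 : V → Finset V, K2 D P R2 ∧ cost2 D P R2 < cost1 D X R

theorem theoremA (D : OGraph V) {P R : V → Finset V} (h : K2 D P R) :
    ∃ X' R' : V → Finset V, K1 D X' R' ∧ cost1 D X' R' ≤ cost2 D P R

theorem final {V : Type u} [Fintype V] [Nonempty V] (D : OGraph V) :
    ∃ v, (N1 D v).card ≤ (N2 D v).card
-/

end Vale.Agent.P038.H88
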