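import Vale.Agent.P038.H88.Defs

/-!
# Property (G) in an arc-minimal counterexample
-/

namespace Vale.Agent.P038.H88

open Finset

attribute [local instance] Classical.propDecidable

variable {V : Type*} [Fintype V]

theorem cl_union' (D : OGraph V) (X Y : Finset V) : cl D (X ∪ Y) = cl D X ∪ cl D Y := by
  ext u
  simp only [mem_cl, mem_union]
  constructor
  · rintro ((h | h) | ⟨x, hx | hx, hxu⟩)
    · exact Or.inl (Or.inl h)
    · exact Or.inr (Or.inl h)
    · exact Or.inl (Or.inr ⟨x, hx, hxu⟩)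
    · exact Or.inr (Or.inr ⟨x, hx, hxu⟩)
  · rintro ((h | ⟨x, hx, hxu⟩) | (h | ⟨x, hx, hxu⟩))
    · exact Or.inl (Or.inl h)
    · exact Or.inr ⟨x, Or.inl hx, hxu⟩
    · exact Or.inl (Or.inr h)
    · exact Or.inr ⟨x, Or.inr hx, hxu⟩

theorem G_of_arcMin (D : OGraph V) (h : ∀ v, (N2 D v).card < (N1 D v).card)
    (hmin : ∀ D' : OGraph V, (∀ u v, D'.arc u v → D.arc u v) →
      (∀ v, (N2 D' v).card < (N1 D' v).card) → ∀ u v, D.arc u v → D'.arc u v) : G D := by
  intro X hX
  by_contra hcon
  rw [not_lt] at hcon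
  -- the layer
  let L : Finset V := cl D X \ X
  let d : Finset V → ℤ := fun T => ((cl D T \ X).card : ℤ) - 2 * (T.card : ℤ)
  have hLne : L.Nonempty := by
    rw [sdiff_nonempty]
    intro hsub
    exact hX (Subset.antisymm hsub (subset_cl D X))
  have hd0 : d ∅ = 0 := by
    have : cl D ∅ = ∅ := by
      ext u; simp [mem_cl]
    simp [d, this]
  have hXL : X ∪ L = cl D X := by
    simp only [L]
    rw [union_sdiff_of_subset (subset_cl D X)]
  have hdL : 0 ≤ d L := by
    have e1 : cl D (cl D X) = X ∪ cl D L := by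
      rw [← hXL, cl_union', ← hXL, union_assoc, union_eq_right.2 (subset_cl D L)]
    have e2 : cl D L \ X = cl D (cl D X) \ X := by
      rw [e1]
      ext v
      simp only [mem_sdiff, mem_union]
      tauto
    have e3 := card_sdiff_add_card_eq_card ((subset_cl D X).trans (subset_cl D (cl D X)))
    have e4 := card_sdiff_add_card_eq_card (subset_cl D X)
    have e5 : L.card = (cl D X \ X).card := rfl
    simp only [d]
    rw [e2]
    unfold c at hcon
    omega
  let fam : Finset (Finset V) := univ.filter fun T => T ⊆ L ∧ T ≠ L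
  have hfam : ∀ T, T ∈ fam ↔ T ⊆ L ∧ T ≠ L := by intro T; simp [fam]
  have hne : fam.Nonempty := ⟨∅, (hfam ∅).2 ⟨empty_subset _, fun h' => by
    rw [← h'] at hLne; exact not_nonempty_empty hLne⟩⟩
  obtain ⟨T, hT, hTmin⟩ := exists_min_image fam d hne
  have hTL := (hfam T).1 hT
  have hdT0 : d T ≤ 0 := by
    rw [← hd0]
    exact hTmin ∅ ((hfam ∅).2 ⟨empty_subset _, fun h' => by
      rw [← h'] at hLne; exact not_nonempty_empty hLne⟩)
  -- the Hall inequality
  have hall : ∀ O : Finset V, O ⊆ L → Disjoint T O →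
      2 * (O.card : ℤ) ≤ ((cl D O \ (cl D T ∪ X)).card : ℤ) := by
    intro O hO hdis
    have h1 : d T ≤ d (T ∪ O) := by
      by_cases hTO : T ∪ O = L
      · rw [hTO]; exact hdT0.trans hdL
      · exact hTmin _ ((hfam _).2 ⟨union_subset hTL.1 hO, hTO⟩)
    have e1 : cl D (T ∪ O) \ X = (cl D T \ X) ∪ (cl D O \ (cl D T ∪ X)) := by
      rw [cl_union']
      ext v
      simp only [mem_sdiff, mem_union]
      tauto
    have e2 : Disjoint (cl D T \ X) (cl D O \ (cl D T ∪ X)) := by
      rw [disjoint_left]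
      intro v hv hv'
      simp only [mem_sdiff, mem_union] at hv hv'
      tauto
    have e3 : (cl D (T ∪ O) \ X).card = (cl D T \ X).card + (cl D O \ (cl D T ∪ X)).card := by
      rw [e1, card_union_of_disjoint e2]
    have e4 : (T ∪ O).card = T.card + O.card := card_union_of_disjoint hdis
    simp only [d] at h1
    rw [e3, e4] at h1
    push_cast at h1
    linarith
  -- the smaller graph
  let D' : OGraph V :=
    { arc := fun u v => D.arc u v ∧ ¬ (u ∈ X ∧ v ∉ X ∧ v ∉ T)
      loopless := fun v hv => D.loopless v hv.1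
      asymm := fun u v huv hvu => D.asymm u v huv.1 hvu.1 }
  have hD' : ∀ u v, D'.arc u v ↔ D.arc u v ∧ ¬ (u ∈ X ∧ v ∉ X ∧ v ∉ T) := fun u v => Iff.rfl
  have hCE : ∀ v, (N2 D' v).card < (N1 D' v).card := by
    intro y
    by_cases hy : y ∈ X
    · let O : Finset V := N1 D y \ (X ∪ T)
      have hOm : ∀ z, z ∈ O ↔ D.arc y z ∧ z ∉ X ∧ z ∉ T := by
        intro z
        simp only [O, mem_sdiff, mem_union, mem_N1]
        tauto
      have hOL : O ⊆ L := by
        intro z hz
        rw [hOm] at hz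
        exact mem_sdiff.2 ⟨mem_cl.2 (Or.inr ⟨y, hy, hz.1⟩), hz.2.1⟩
      have hdis : Disjoint T O := by
        rw [disjoint_left]
        intro z hz hz'
        exact ((hOm z).1 hz').2.2 hz
      have hE := hall O hOL hdis
      have hN1 : N1 D' y = N1 D y \ O := by
        ext z
        rw [mem_N1, mem_sdiff, mem_N1, hOm, hD']
        constructor
        · rintro ⟨h1, h2⟩
          exact ⟨h1, fun h3 => h2 ⟨hy, h3.2.1, h3.2.2⟩⟩
        · rintro ⟨h1, h2⟩
          exact ⟨h1, fun h3 => h2 ⟨h1, h3.2.1, h3.2.2⟩⟩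
      have hOsub : O ⊆ N1 D y := sdiff_subset
      have c1 := card_sdiff_add_card_eq_card hOsub
      have hdis2 : Disjoint (N2 D' y) (cl D O \ (cl D T ∪ X)) := by
        rw [disjoint_left]
        intro z hz hz'
        rw [mem_N2] at hz
        rw [mem_sdiff, mem_union, not_or] at hz'
        obtain ⟨_, _, u, hyu, huz⟩ := hz
        obtain ⟨_, hzT, hzX⟩ := hz'
        rw [hD'] at hyu huz
        have hzT' : z ∉ T := fun h' => hzT (subset_cl D T h')
        have huXT : u ∈ X ∨ u ∈ T := by
          by_contra hno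
          rw [not_or] at hno
          exact hyu.2 ⟨hy, hno.1, hno.2⟩
        rcases huXT with hu | hu
        · exact huz.2 ⟨hu, hzX, hzT'⟩
        · exact hzT (mem_cl.2 (Or.inr ⟨u, hu, huz.1⟩))
      have hsub : N2 D' y ∪ (cl D O \ (cl D T ∪ X)) ⊆ N2 D y ∪ O := by
        intro z hz
        rw [mem_union] at hz ⊢
        rcases hz with hz | hz
        · rw [mem_N2] at hz
          obtain ⟨hzy, hnz, u, hyu, huz⟩ := hz
          rw [hD'] at hyu huz hnz
          by_cases hyz : D.arc y z
          · right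
            rw [hOm]
            have : y ∈ X ∧ z ∉ X ∧ z ∉ T := by
              by_contra hno
              exact hnz ⟨hyz, hno⟩
            exact ⟨hyz, this.2.1, this.2.2⟩
          · left
            rw [mem_N2]
            exact ⟨hzy, hyz, u, hyu.1, huz.1⟩
        · rw [mem_sdiff, mem_union, not_or] at hz
          obtain ⟨hzO, hzT, hzX⟩ := hz
          have hzT' : z ∉ T := fun h' => hzT (subset_cl D T h')
          rw [mem_cl] at hzO
          rcases hzO with hzO | ⟨x, hx, hxz⟩
          · exact Or.inr hzO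
          · by_cases hyz : D.arc y z
            · exact Or.inr ((hOm z).2 ⟨hyz, hzX, hzT'⟩)
            · left
              rw [mem_N2]
              refine ⟨fun h' => hzX (h' ▸ hy), hyz, x, ((hOm x).1 hx).1, hxz⟩
      have c2 := card_le_card hsub
      rw [card_union_of_disjoint hdis2] at c2
      have c3 := card_union_le (N2 D y) O
      have c4 := h y
      rw [hN1]
      omega
    · have hN1 : N1 D' y = N1 D y := by
        ext z
        rw [mem_N1, mem_N1, hD']
        exact ⟨fun h1 => h1.1, fun h1 => ⟨h1, fun h2 => hy h2.1⟩⟩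
      have hN2 : N2 D' y ⊆ N2 D y := by
        intro z hz
        rw [mem_N2] at hz ⊢
        obtain ⟨hzy, hnz, u, hyu, huz⟩ := hz
        rw [hD'] at hyu huz hnz
        exact ⟨hzy, fun h1 => hnz ⟨h1, fun h2 => hy h2.1⟩, u, hyu.1, huz.1⟩
      rw [hN1]
      exact (card_le_card hN2).trans_lt (h y)
  have hall' := hmin D' (fun u v huv => huv.1) hCE
  have hex : ∃ z, z ∈ L ∧ z ∉ T := by
    by_contra hno
    push Not at hno
    exact hTL.2 (Subset.antisymm hTL.1 hno)
  obtain ⟨z, hzL, hzT⟩ := hex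
  rw [mem_sdiff, mem_cl] at hzL
  rcases hzL with ⟨hz | ⟨x, hx, hxz⟩, hzX⟩
  · exact hzX hz
  · exact ((hD' x z).1 (hall' x z hxz)).2 ⟨hx, hzX, hzT⟩

/-- The set of arcs. -/
noncomputable def arcs (D : OGraph V) : Finset (V × V) := univ.filter fun p => D.arc p.1 p.2

theorem exists_arcMin (D : OGraph V) (h : ∀ v, (N2 D v).card < (N1 D v).card) :
    ∃ D0 : OGraph V, (∀ v, (N2 D0 v).card < (N1 D0 v).card) ∧
      ∀ D' : OGraph V, (∀ u v, D'.arc u v → D0.arc u v) →
        (∀ v, (N2 D' v).card < (N1 D' v).card) → ∀ u v, D0.arc u v → D'.arc u v := by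
  have hex : ∃ n, ∃ D1 : OGraph V, (∀ v, (N2 D1 v).card < (N1 D1 v).card) ∧
      (arcs D1).card = n := ⟨_, D, h, rfl⟩
  obtain ⟨D0, hD0, hn⟩ := Nat.find_spec hex
  refine ⟨D0, hD0, ?_⟩
  intro D' hsub hCE u v huv
  have h1 : Nat.find hex ≤ (arcs D').card := Nat.find_min' hex ⟨D', hCE, rfl⟩
  have h2 : arcs D' ⊆ arcs D0 := by
    intro p hp
    simp only [arcs, mem_filter, mem_univ, true_and] at hp ⊢
    exact hsub _ _ hp
  have h3 : arcs D' = arcs D0 := eq_of_subset_of_card_le h2 (by rw [hn]; exact h1)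
  have h4 : (u, v) ∈ arcs D0 := by simp [arcs, huv]
  rw [← h3] at h4
  simpa [arcs] using h4

end Vale.Agent.P038.H88
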