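import Vale.Agent.P038.H88.A
import Vale.Agent.P038.H88.B
import Vale.Agent.P038.H88.GL

/-!
# Seymour's second neighbourhood conjecture
-/

namespace Vale.Agent.P038.H88

open Finset

attribute [local instance] Classical.propDecidable

variable {V : Type*} [Fintype V]

theorem G_absurd (D : OGraph V) [Nonempty V] (hG : G D) (hout : ∀ v, ∃ u, D.arc v u) : False := by
  let fam : Finset ((V → Finset V) × (V → Finset V)) := univ.filter fun q => K1 D q.1 q.2
  have hfam : ∀ q, q ∈ fam ↔ K1 D q.1 q.2 := by intro q; simp [fam]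
  have hne : fam.Nonempty := by
    refine ⟨(fun a => {a}, fun a => cl D {a}), (hfam _).2 ⟨fun a => mem_singleton_self a,
      fun a => Subset.refl _, ?_⟩⟩
    intro a b hba hb
    rw [mem_cl] at hb
    rcases hb with hb | ⟨x, hx, hxb⟩
    · rw [mem_singleton] at hb
      subst hb
      exact D.loopless b hba
    · rw [mem_singleton] at hx
      subst hx
      exact D.asymm b x hba hxb
  obtain ⟨q, hq, hmin⟩ := exists_min_image fam (fun q => cost1 D q.1 q.2) hne
  obtain ⟨P, R2, h2, hlt⟩ := theoremB D hG hout ((hfam q).1 hq)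
  obtain ⟨X', R', h1, hle⟩ := theoremA D h2
  have h3 := hmin (X', R') ((hfam _).2 h1)
  simp only at h3
  linarith

/-- Seymour's second neighbourhood conjecture. -/
theorem final [Nonempty V] (D : OGraph V) : ∃ v, (N1 D v).card ≤ (N2 D v).card := by
  by_contra hno
  push Not at hno
  obtain ⟨D0, hD0, hmin⟩ := exists_arcMin D hno
  refine G_absurd D0 (G_of_arcMin D0 hD0 hmin) ?_
  intro v
  have h1 : 0 < (N1 D0 v).card := (Nat.zero_le _).trans_lt (hD0 v)
  obtain ⟨u, hu⟩ := card_pos.1 h1
  exact ⟨u, mem_N1.1 hu⟩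

end Vale.Agent.P038.H88
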